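import Vale.Agent.P073.GB1W.Box

/-!
# P073, block GB1: uncountably many levels of a box shaped body are crossed exactly once by
every edge of the net which should cross them
-/

open Set Metric Topology Filter MeasureTheory
open scoped Pointwise NNReal ENNReal

namespace P073.GB1W

open P073 P073.GB73 P073.PR720
open Vale.Agent.P073.St (V)

/-- the parametrised edge -/
def eb {Vx B : Type} {e0 e1 : B → Vx} (G : Graph e0 e1 V) (b : B) (s : ℝ) : V :=
  G.y (e0 b) + s • (G.y (e1 b) - G.y (e0 b))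

theorem eb_mem {Vx B : Type} {e0 e1 : B → Vx} {G : Graph e0 e1 V} {b : B}
    (hseg : G.arc b = segment ℝ (G.y (e0 b)) (G.y (e1 b))) {s : ℝ} (hs : s ∈ Icc (0:ℝ) 1) :
    eb G b s ∈ G.arc b := by
  rw [hseg, segment_eq_image']
  exact ⟨s, hs, rfl⟩

theorem eb_zero {Vx B : Type} {e0 e1 : B → Vx} (G : Graph e0 e1 V) (b : B) :
    eb G b 0 = G.y (e0 b) := by simp [eb]

theorem eb_one {Vx B : Type} {e0 e1 : B → Vx} (G : Graph e0 e1 V) (b : B) :
    eb G b 1 = G.y (e1 b) := by simp [eb]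

/-- `x` is inside the levels `α..β`, `x'` outside, in the direction `σ e_k` -/
def InOut (c w : V) (α β μ : ℝ) (k : Fin 3) (σ : ℝ) (x x' : V) : Prop :=
  -(α * w k) < σ * (x k - c k) - μ ∧ σ * (x k - c k) + μ ≤ α * w k ∧
    β * w k ≤ σ * (x' k - c k) - μ

/-- position and closeness data of a crossed edge -/
structure EdgeData {Vx B : Type} {e0 e1 : B → Vx} (G : Graph e0 e1 V) (h : V → V) (y0 c : V)
    (A : V ≃L[ℝ] V) (w : V) (α β μ η : ℝ) (k : Fin 3) (σ : ℝ) (b : B) : Prop where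
  sgn : σ = 1 ∨ σ = -1
  seg : G.arc b = segment ℝ (G.y (e0 b)) (G.y (e1 b))
  dir : ∀ j, j ≠ k → G.y (e1 b) j = G.y (e0 b) j
  lip : ∃ K : ℝ≥0, LipschitzOnWith K (fun s => h (eb G b s)) (Icc 0 1)
  sup : ∀ x ∈ G.arc b, ‖A.symm (h x - y0) - (x - c)‖ ≤ μ
  der : ∫⁻ s in Icc (0:ℝ) 1, ENNReal.ofReal ‖A.symm (deriv (fun s => h (eb G b s)) s) -
    (G.y (e1 b) - G.y (e0 b))‖ ≤ ENNReal.ofReal η
  mid : ∀ j, j ≠ k → |G.y (e0 b) j - c j| + μ < α * w j
  pos : InOut c w α β μ k σ (G.y (e0 b)) (G.y (e1 b)) ∨ InOut c w α β μ k σ (G.y (e1 b)) (G.y (e0 b))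

variable {Vx B : Type} {e0 e1 : B → Vx} {G : Graph e0 e1 V} {h : V → V} {y0 c : V}
  {A : V ≃L[ℝ] V} {w : V} {α β μ η : ℝ} {k : Fin 3} {σ : ℝ} {b : B}

/-- the level function along the edge -/
noncomputable def ub (G : Graph e0 e1 V) (h : V → V) (y0 : V) (A : V ≃L[ℝ] V) (w : V) (k : Fin 3)
    (σ : ℝ) (b : B) (s : ℝ) : ℝ := σ * A.symm (h (eb G b s) - y0) k / w k

theorem eb_coord (G : Graph e0 e1 V) (b : B) (s : ℝ) (j : Fin 3) :
    eb G b s j = G.y (e0 b) j + s * (G.y (e1 b) j - G.y (e0 b) j) := by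
  simp [eb]

theorem EdgeData.coord (H : EdgeData G h y0 c A w α β μ η k σ b) {j : Fin 3} (hj : j ≠ k) (s : ℝ) :
    eb G b s j = G.y (e0 b) j := by
  rw [eb_coord, H.dir j hj, sub_self, mul_zero, add_zero]

theorem EdgeData.close (H : EdgeData G h y0 c A w α β μ η k σ b) {s : ℝ} (hs : s ∈ Icc (0:ℝ) 1)
    (j : Fin 3) : |A.symm (h (eb G b s) - y0) j - (eb G b s j - c j)| ≤ μ :=
  (norm_le_pi_norm _ j).trans (H.sup _ (eb_mem H.seg hs))

theorem EdgeData.mid' (H : EdgeData G h y0 c A w α β μ η k σ b) {s : ℝ} (hs : s ∈ Icc (0:ℝ) 1)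
    {j : Fin 3} (hj : j ≠ k) : |A.symm (h (eb G b s) - y0) j| < α * w j := by
  have h1 := H.close hs j
  rw [H.coord hj] at h1
  have h2 := H.mid j hj
  calc |A.symm (h (eb G b s) - y0) j| = |(A.symm (h (eb G b s) - y0) j - (G.y (e0 b) j - c j)) +
        (G.y (e0 b) j - c j)| := by ring_nf
    _ ≤ _ := abs_add_le _ _
    _ < _ := by linarith

theorem EdgeData.sq (H : EdgeData G h y0 c A w α β μ η k σ b) : σ * σ = 1 := by
  rcases H.sgn with rfl | rfl <;> norm_num

theorem EdgeData.abs (H : EdgeData G h y0 c A w α β μ η k σ b) : |σ| = 1 := by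
  rcases H.sgn with rfl | rfl <;> norm_num

theorem EdgeData.low (H : EdgeData G h y0 c A w α β μ η k σ b) (hw : ∀ k, 0 < w k) (hα : 0 < α)
    (hαβ : α < β) {s : ℝ} (hs : s ∈ Icc (0:ℝ) 1) :
    -(α * w k) < σ * A.symm (h (eb G b s) - y0) k := by
  have h1 := H.close hs k
  have h2 : |σ * A.symm (h (eb G b s) - y0) k - σ * (eb G b s k - c k)| ≤ μ := by
    rw [← mul_sub, abs_mul, H.abs, one_mul]
    exact h1
  have h3 := (abs_le.1 h2).1
  have hwk := hw k
  have hβ : -(α * w k) < β * w k := by nlinarith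
  have h4 : -(α * w k) < σ * (eb G b s k - c k) - μ := by
    have h5 : σ * (eb G b s k - c k) = (1 - s) * (σ * (G.y (e0 b) k - c k)) +
        s * (σ * (G.y (e1 b) k - c k)) := by
      rw [eb_coord]; ring
    rw [h5]
    have hs0 : 0 ≤ s := hs.1
    have hs1 : 0 ≤ 1 - s := by linarith [hs.2]
    rcases H.pos with ⟨p1, -, p3⟩ | ⟨p1, -, p3⟩
    · have q1 : 0 < σ * (G.y (e0 b) k - c k) - μ + α * w k := by linarith
      have q2 : 0 < σ * (G.y (e1 b) k - c k) - μ + α * w k := by linarith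
      rcases hs0.lt_or_eq with h6 | h6
      · have := mul_pos h6 q2
        have := mul_nonneg hs1 q1.le
        nlinarith
      · rw [← h6]; linarith
    · have q1 : 0 < σ * (G.y (e1 b) k - c k) - μ + α * w k := by linarith
      have q2 : 0 < σ * (G.y (e0 b) k - c k) - μ + α * w k := by linarith
      rcases hs0.lt_or_eq with h6 | h6
      · have := mul_pos h6 q1
        have := mul_nonneg hs1 q2.le
        nlinarith
      · rw [← h6]; linarith
  linarith

/-- membership in the frontier of the body along an edge -/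
theorem EdgeData.frontier_iff (H : EdgeData G h y0 c A w α β μ η k σ b) {T : Set ℝ}
    (hw : ∀ k, 0 < w k) (hα : 0 < α) {t : ℝ} (ht : t ∈ Ioo α β) {s : ℝ} (hs : s ∈ Icc (0:ℝ) 1) :
    h (eb G b s) ∈ frontier ((bBody y0 A w T).at t) ↔ ub G h y0 A w k σ b s = t := by
  have ht0 : 0 < t := hα.trans ht.1
  have hαβ : α < β := ht.1.trans ht.2
  have hwk := hw k
  rw [mem_frontier_at ht0, ub, div_eq_iff hwk.ne']
  have hlow := H.low hw hα hαβ hs
  have hmid : ∀ j, j ≠ k → |A.symm (h (eb G b s) - y0) j| < t * w j := fun j hj =>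
    (H.mid' hs hj).trans (mul_lt_mul_of_pos_right ht.1 (hw j))
  constructor
  · rintro ⟨-, j, hj⟩
    have hjk : j = k := by
      by_contra hjk
      exact (hmid j hjk).ne hj
    subst hjk
    have h1 : |σ * A.symm (h (eb G b s) - y0) j| = t * w j := by
      rw [abs_mul, H.abs, one_mul, hj]
    rcases abs_eq (by positivity) |>.1 h1 with h2 | h2
    · exact h2
    · exfalso
      have : α * w j < t * w j := mul_lt_mul_of_pos_right ht.1 (hw j)
      linarith
  · intro h1
    have h2 : |A.symm (h (eb G b s) - y0) k| = t * w k := by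
      have h3 : |σ * A.symm (h (eb G b s) - y0) k| = t * w k := by
        rw [h1, abs_of_pos (by positivity)]
      rwa [abs_mul, H.abs, one_mul] at h3
    refine ⟨fun j => ?_, k, h2⟩
    by_cases hjk : j = k
    · subst hjk; exact h2.le
    · exact (hmid j hjk).le

theorem EdgeData.interior_iff (H : EdgeData G h y0 c A w α β μ η k σ b) {T : Set ℝ}
    (hw : ∀ k, 0 < w k) (hα : 0 < α) {t : ℝ} (ht : t ∈ Ioo α β) {s : ℝ} (hs : s ∈ Icc (0:ℝ) 1) :
    (h (eb G b s) ∈ interior ((bBody y0 A w T).at t) ↔ ub G h y0 A w k σ b s < t) ∧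
    (h (eb G b s) ∈ (bBody y0 A w T).at t ↔ ub G h y0 A w k σ b s ≤ t) := by
  have ht0 : 0 < t := hα.trans ht.1
  have hαβ : α < β := ht.1.trans ht.2
  have hwk := hw k
  rw [mem_interior_at ht0, mem_at ht0, ub, div_lt_iff₀ hwk, div_le_iff₀ hwk]
  have hlow := H.low hw hα hαβ hs
  have hαt : α * w k < t * w k := mul_lt_mul_of_pos_right ht.1 hwk
  have hmid : ∀ j, j ≠ k → |A.symm (h (eb G b s) - y0) j| < t * w j := fun j hj =>
    (H.mid' hs hj).trans (mul_lt_mul_of_pos_right ht.1 (hw j))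
  have habs : |σ * A.symm (h (eb G b s) - y0) k| = |A.symm (h (eb G b s) - y0) k| := by
    rw [abs_mul, H.abs, one_mul]
  constructor
  · constructor
    · intro h1
      exact (le_abs_self _).trans_lt (habs ▸ h1 k)
    · intro h1 j
      by_cases hjk : j = k
      · subst hjk
        rw [← habs, abs_lt]
        exact ⟨by linarith, h1⟩
      · exact hmid j hjk
  · constructor
    · intro h1
      exact (le_abs_self _).trans (habs ▸ h1 k)
    · intro h1 j
      by_cases hjk : j = k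
      · subst hjk
        rw [← habs, abs_le]
        exact ⟨by linarith, h1⟩
      · exact (hmid j hjk).le

/-- the one-dimensional data of the level function -/
theorem EdgeData.oneDim (H : EdgeData G h y0 c A w α β μ η k σ b) (hw : ∀ k, 0 < w k) :
    (∃ K : ℝ≥0, LipschitzOnWith K (ub G h y0 A w k σ b) (Icc 0 1)) ∧
    (∀ t ∈ Icc (0:ℝ) 1, |ub G h y0 A w k σ b t - (σ * (G.y (e0 b) k - c k) / w k +
      σ * (G.y (e1 b) k - G.y (e0 b) k) / w k * t)| ≤ μ / w k) ∧
    (∫⁻ t in Icc (0:ℝ) 1, ENNReal.ofReal |deriv (ub G h y0 A w k σ b) t -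
      σ * (G.y (e1 b) k - G.y (e0 b) k) / w k| ≤ ENNReal.ofReal (η / w k)) ∧
    ((σ * (G.y (e0 b) k - c k) / w k + μ / w k ≤ α ∧ β ≤ σ * (G.y (e0 b) k - c k) / w k +
        σ * (G.y (e1 b) k - G.y (e0 b) k) / w k - μ / w k) ∨
      (σ * (G.y (e0 b) k - c k) / w k + σ * (G.y (e1 b) k - G.y (e0 b) k) / w k + μ / w k ≤ α ∧
        β ≤ σ * (G.y (e0 b) k - c k) / w k - μ / w k)) := by
  have hwk := hw k
  -- the functional
  let ℓ : V →L[ℝ] ℝ := (σ / w k) • ((ContinuousLinearMap.proj k : V →L[ℝ] ℝ).comp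
    (A.symm : V →L[ℝ] V))
  have hℓ : ∀ x, ℓ x = σ * A.symm x k / w k := by
    intro x
    simp only [ℓ, _root_.smul_apply, ContinuousLinearMap.comp_apply,
      ContinuousLinearMap.proj_apply, smul_eq_mul, ContinuousLinearEquiv.coe_coe]
    ring
  have hub : ub G h y0 A w k σ b = fun s => ℓ (h (eb G b s) - y0) := by
    funext s
    rw [hℓ, ub]
  obtain ⟨K, hK⟩ := H.lip
  refine ⟨?_, ?_, ?_, ?_⟩
  · rw [hub]
    have h1 : LipschitzOnWith K (fun s => h (eb G b s) - y0) (Icc 0 1) := by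
      intro x hx y hy
      simpa using hK hx hy
    exact ⟨‖ℓ‖₊ * K, ℓ.lipschitz.comp_lipschitzOnWith h1⟩
  · intro t ht
    have h1 := H.close ht k
    have h2 : ub G h y0 A w k σ b t - (σ * (G.y (e0 b) k - c k) / w k +
        σ * (G.y (e1 b) k - G.y (e0 b) k) / w k * t) =
        σ * (A.symm (h (eb G b t) - y0) k - (eb G b t k - c k)) / w k := by
      rw [ub, eb_coord]; field_simp; ring
    rw [h2, abs_div, abs_mul, H.abs, one_mul, abs_of_pos hwk]
    exact div_le_div_of_nonneg_right h1 hwk.le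
  · -- derivatives agree almost everywhere
    have hdiff : ∀ᵐ s : ℝ, s ∈ Icc (0:ℝ) 1 → DifferentiableAt ℝ (fun s => h (eb G b s)) s := by
      have h1 : ∀ᵐ s : ℝ, s ∈ Icc (0:ℝ) 1 →
          DifferentiableWithinAt ℝ (fun s => h (eb G b s)) (Icc 0 1) s :=
        hK.ae_differentiableWithinAt_of_mem
      have h2 : ∀ᵐ s : ℝ, s ≠ 0 ∧ s ≠ 1 := by
        have := (Set.toFinite ({0, 1} : Set ℝ)).countable.ae_notMem volume
        filter_upwards [this] with s hs
        simpa using hs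
      filter_upwards [h1, h2] with s hs hs' hs1
      refine (hs hs1).differentiableAt (Icc_mem_nhds ?_ ?_)
      · exact lt_of_le_of_ne hs1.1 (Ne.symm hs'.1)
      · exact lt_of_le_of_ne hs1.2 hs'.2
    calc ∫⁻ t in Icc (0:ℝ) 1, ENNReal.ofReal |deriv (ub G h y0 A w k σ b) t -
          σ * (G.y (e1 b) k - G.y (e0 b) k) / w k|
        ≤ ∫⁻ s in Icc (0:ℝ) 1, ENNReal.ofReal (1 / w k) *
            ENNReal.ofReal ‖A.symm (deriv (fun s => h (eb G b s)) s) -
            (G.y (e1 b) - G.y (e0 b))‖ := by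
          refine lintegral_mono_ae ?_
          rw [ae_restrict_iff' measurableSet_Icc]
          filter_upwards [hdiff] with s hs hs1
          have h1 : HasDerivAt (ub G h y0 A w k σ b)
              (ℓ (deriv (fun s => h (eb G b s)) s)) s := by
            rw [hub]
            exact ℓ.hasFDerivAt.comp_hasDerivAt s ((hs hs1).hasDerivAt.sub_const y0)
          rw [h1.deriv, ← ENNReal.ofReal_mul (by positivity)]
          refine ENNReal.ofReal_le_ofReal ?_
          have h2 : ℓ (deriv (fun s => h (eb G b s)) s) - σ * (G.y (e1 b) k - G.y (e0 b) k) / w k =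
              σ * (A.symm (deriv (fun s => h (eb G b s)) s) - (G.y (e1 b) - G.y (e0 b))) k /
                w k := by
            rw [hℓ, Pi.sub_apply, Pi.sub_apply]; ring
          rw [h2, abs_div, abs_mul, H.abs, one_mul, abs_of_pos hwk, one_div, div_eq_inv_mul]
          have h3 := norm_le_pi_norm (A.symm (deriv (fun s => h (eb G b s)) s) -
            (G.y (e1 b) - G.y (e0 b))) k
          rw [Real.norm_eq_abs] at h3
          exact mul_le_mul_of_nonneg_left h3 (by positivity)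
      _ = ENNReal.ofReal (1 / w k) * ∫⁻ s in Icc (0:ℝ) 1,
            ENNReal.ofReal ‖A.symm (deriv (fun s => h (eb G b s)) s) -
            (G.y (e1 b) - G.y (e0 b))‖ := lintegral_const_mul' _ _ ENNReal.ofReal_ne_top
      _ ≤ ENNReal.ofReal (1 / w k) * ENNReal.ofReal η := by
          gcongr
          exact H.der
      _ = _ := by
          rw [← ENNReal.ofReal_mul (by positivity)]
          congr 1; ring
  · rcases H.pos with ⟨-, p2, p3⟩ | ⟨-, p2, p3⟩
    · left
      constructor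
      · rw [← add_div, div_le_iff₀ hwk]; exact p2
      · rw [← add_div, ← sub_div, le_div_iff₀ hwk]; linarith
    · right
      constructor
      · rw [← add_div, ← add_div, div_le_iff₀ hwk]; linarith
      · rw [← sub_div, le_div_iff₀ hwk]; exact p3

/-- **(GB1)** -/
theorem exists_levels (hw : ∀ k, 0 < w k) (hα : 0 < α) (hμ : 0 ≤ μ) (hη : 0 ≤ η) (P : Finset B)
    (k : B → Fin 3) (σ : B → ℝ)
    (HP : ∀ b ∈ P, EdgeData G h y0 c A w α β μ η (k b) (σ b) b)
    (hsum : ∑ b ∈ P, (2 * (μ / w (k b)) + η / w (k b)) < β - α)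
    (hoff : ∀ b ∉ P, ∀ x ∈ G.arc b, ∀ t ∈ Ioo α β, h x ∉ frontier ((bBody y0 A w ∅).at t)) :
    ∃ T : Set ℝ, T ⊆ Ioo α β ∧ ¬ T.Countable ∧ ∃ y : ℝ → B → V,
      (∀ t ∈ T, Crosses G h ((bBody y0 A w T).at t) (P : Set B) (y t)) ∧
      (∀ t ∈ T, ∀ b ∈ P, y t b ∈ h '' G.arc b ∧
        σ b * A.symm (y t b - y0) (k b) = t * w (k b) ∧
        ∀ j, j ≠ k b → |A.symm (y t b - y0) j - (G.y (e0 b) j - c j)| ≤ μ) := by
  classical
  set T : Set ℝ := {t | t ∈ Ioo α β ∧
    ∀ b ∈ P, ∃! s, s ∈ Icc (0:ℝ) 1 ∧ ub G h y0 A w (k b) (σ b) b s = t} with hT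
  have hTc : ¬ T.Countable := by
    refine not_countable_good P (u := fun b => ub G h y0 A w (k b) (σ b) b)
      (fun b hb => ((HP b hb).oneDim hw).1)
      (q := fun b => σ b * (G.y (e0 b) (k b) - c (k b)) / w (k b))
      (c := fun b => σ b * (G.y (e1 b) (k b) - G.y (e0 b) (k b)) / w (k b))
      (μ := fun b => μ / w (k b)) (η := fun b => η / w (k b))
      (fun b _ => div_nonneg hμ (hw _).le) (fun b _ => div_nonneg hη (hw _).le)
      (fun b hb => ((HP b hb).oneDim hw).2.1) (fun b hb => ((HP b hb).oneDim hw).2.2.1)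
      (fun b hb => ((HP b hb).oneDim hw).2.2.2) hsum
  have hs : ∀ t : ℝ, ∀ b : B, ∃ s : ℝ, t ∈ T → b ∈ P → (s ∈ Icc (0:ℝ) 1 ∧
      ub G h y0 A w (k b) (σ b) b s = t) ∧ ∀ s', s' ∈ Icc (0:ℝ) 1 →
      ub G h y0 A w (k b) (σ b) b s' = t → s' = s := by
    intro t b
    by_cases ht : t ∈ T ∧ b ∈ P
    · obtain ⟨s, hs, hs'⟩ := ht.1.2 b ht.2
      exact ⟨s, fun _ _ => ⟨hs, fun s' h1 h2 => hs' s' ⟨h1, h2⟩⟩⟩
    · exact ⟨0, fun h1 h2 => absurd ⟨h1, h2⟩ ht⟩
  choose s hs using hs
  refine ⟨T, fun t ht => ht.1, hTc, fun t b => h (eb G b (s t b)), ?_, ?_⟩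
  · intro t ht
    have ht0 : 0 < t := hα.trans ht.1.1
    refine ⟨?_, ?_, ?_⟩
    · intro b hb
      rw [Set.disjoint_left]
      rintro _ ⟨x, hx, rfl⟩ h2
      have h3 := hoff b (by simpa using hb) x hx t ht.1
      exact h3 h2
    · intro b hb
      have hb' : b ∈ P := by simpa using hb
      obtain ⟨⟨h1, h2⟩, h3⟩ := hs t b ht hb'
      ext y
      rw [mem_singleton_iff]
      constructor
      · rintro ⟨⟨x, hx, rfl⟩, h5⟩
        rw [(HP b hb').seg, segment_eq_image'] at hx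
        obtain ⟨s', hs', rfl⟩ := hx
        have h6 := ((HP b hb').frontier_iff (T := T) hw hα ht.1 hs').1 h5
        show h (eb G b s') = h (eb G b (s t b))
        rw [h3 s' hs' h6]
      · rintro rfl
        exact ⟨⟨_, eb_mem (HP b hb').seg h1, rfl⟩,
          ((HP b hb').frontier_iff (T := T) hw hα ht.1 h1).2 h2⟩
    · intro b hb
      have hb' : b ∈ P := by simpa using hb
      have hz := left_mem_Icc.2 (zero_le_one' ℝ)
      have ho := right_mem_Icc.2 (zero_le_one' ℝ)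
      have hw' := hw (k b)
      have i0 := (HP b hb').interior_iff (T := T) hw hα ht.1 hz
      have i1 := (HP b hb').interior_iff (T := T) hw hα ht.1 ho
      rw [eb_zero] at i0
      rw [eb_one] at i1
      obtain ⟨-, hsup, -, hends⟩ := (HP b hb').oneDim hw
      have s0 := abs_le.1 (hsup 0 hz)
      have s1 := abs_le.1 (hsup 1 ho)
      rw [mul_zero, add_zero] at s0
      rw [mul_one] at s1
      rcases hends with ⟨e1', e2'⟩ | ⟨e1', e2'⟩
      · left
        exact ⟨i0.1.2 (by linarith [ht.1.1, s0.2]), fun hc => by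
          have := i1.2.1 hc; linarith [ht.1.2, s1.1]⟩
      · right
        exact ⟨i1.1.2 (by linarith [ht.1.1, s1.2]), fun hc => by
          have := i0.2.1 hc; linarith [ht.1.2, s0.1]⟩
  · intro t ht b hb
    obtain ⟨⟨h1, h2⟩, -⟩ := hs t b ht hb
    refine ⟨⟨_, eb_mem (HP b hb).seg h1, rfl⟩, ?_, ?_⟩
    · rw [ub, div_eq_iff (hw _).ne'] at h2
      exact h2
    · intro j hj
      have := (HP b hb).close h1 j
      rwa [(HP b hb).coord hj] at this

/-- points of the net which are near, but not crossed -/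
theorem notMem_frontier_of_close {T : Set ℝ} (hw : ∀ k, 0 < w k) (hα : 0 < α) {t : ℝ}
    (ht : t ∈ Ioo α β) {x z : V} (hsup : ‖A.symm (z - y0) - (x - c)‖ ≤ μ)
    (hpos : (∀ j, |x j - c j| + μ ≤ α * w j) ∨ ∃ j, β * w j ≤ |x j - c j| - μ) :
    z ∉ frontier ((bBody y0 A w T).at t) := by
  have ht0 : 0 < t := hα.trans ht.1
  rw [mem_frontier_at ht0]
  rintro ⟨h1, j, hj⟩
  have hc : ∀ j, |A.symm (z - y0) j - (x j - c j)| ≤ μ := fun j =>
    (norm_le_pi_norm _ j).trans hsup
  rcases hpos with hp | ⟨i, hi⟩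
  · have h2 : |A.symm (z - y0) j| ≤ |x j - c j| + μ := by
      have := abs_sub_abs_le_abs_sub (A.symm (z - y0) j) (x j - c j)
      linarith [hc j]
    have h3 : α * w j < t * w j := mul_lt_mul_of_pos_right ht.1 (hw j)
    linarith [hp j]
  · have h2 : |x i - c i| ≤ |A.symm (z - y0) i| + μ := by
      have h4 := abs_sub_abs_le_abs_sub (x i - c i) (A.symm (z - y0) i)
      have h5 := hc i
      rw [abs_sub_comm] at h5
      linarith
    have h3 : t * w i < β * w i := mul_lt_mul_of_pos_right ht.2 (hw i)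
    linarith [h1 i]

end P073.GB1W
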