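import Vale.Agent.P073.HB.Acl3
import Mathlib.MeasureTheory.Integral.IntervalIntegral.AbsolutelyContinuousFun

/-!
# P073, block GB1: most levels are taken exactly once by a function close to an affine one
-/

open MeasureTheory Set Filter Topology
open scoped ENNReal NNReal

namespace P073.GB1W

open Vale.Agent.P073.HB (HasMod lev dN measurable_dN lintegral_dN_le encard_lev_le)

/-- measurable majorant of the number of solutions -/
theorem exists_majorant {u : ℝ → ℝ} {h : ℝ → ℝ≥0∞} (hc : ContinuousOn u (Icc 0 1))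
    (hu : HasMod u h) {U : Set ℝ} (hU : IsOpen U) :
    ∃ N : ℝ → ℝ≥0∞, Measurable N ∧ (∀ y, ((lev u U y).encard : ℝ≥0∞) ≤ N y) ∧
      ∫⁻ y, N y ≤ ∫⁻ r in U ∩ Ioc 0 1, h r := by
  refine ⟨fun y => liminf (fun n => dN u U n y) atTop,
    Measurable.liminf fun n => measurable_dN hc U n, fun y => encard_lev_le hU y, ?_⟩
  calc ∫⁻ y, liminf (fun n => dN u U n y) atTop
      ≤ liminf (fun n => ∫⁻ y, dN u U n y) atTop :=
        lintegral_liminf_le fun n => measurable_dN hc U n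
    _ ≤ ∫⁻ r in U ∩ Ioc 0 1, h r := by
        refine liminf_le_of_le (by isBoundedDefault) ?_
        intro b hb
        obtain ⟨n, hn⟩ := hb.exists
        exact hn.trans (lintegral_dN_le hc hu U n)

theorem hasMod_deriv {u : ℝ → ℝ} {K : ℝ≥0} (hu : LipschitzOnWith K u (Icc 0 1)) :
    HasMod u (fun r => ENNReal.ofReal |deriv u r|) := by
  intro s hs t ht hst
  have h1 : LipschitzOnWith K u (uIcc s t) := by
    rw [uIcc_of_le hst]
    exact hu.mono (Icc_subset_Icc hs.1 ht.2)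
  have h2 := h1.absolutelyContinuousOnInterval.integral_deriv_eq_sub
  rw [edist_comm, edist_eq_enorm_sub, ← h2, intervalIntegral.integral_of_le hst]
  refine (enorm_integral_le_lintegral_enorm _).trans (le_of_eq ?_)
  refine lintegral_congr fun r => ?_
  rw [← ofReal_norm, Real.norm_eq_abs]

/-- **Most levels are taken exactly once.** -/
theorem exists_bad {u : ℝ → ℝ} {K : ℝ≥0} (hu : LipschitzOnWith K u (Icc 0 1))
    {q c μ η α β : ℝ} (hαβ : α < β) (hμ : 0 ≤ μ) (hη : 0 ≤ η)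
    (hsup : ∀ t ∈ Icc (0:ℝ) 1, |u t - (q + c * t)| ≤ μ)
    (hder : ∫⁻ t in Icc (0:ℝ) 1, ENNReal.ofReal |deriv u t - c| ≤ ENNReal.ofReal η)
    (hends : (q + μ ≤ α ∧ β ≤ q + c - μ) ∨ (q + c + μ ≤ α ∧ β ≤ q - μ)) :
    ∃ B : Set ℝ, MeasurableSet B ∧ volume B ≤ ENNReal.ofReal (2 * μ + η) ∧
      ∀ y ∈ Ioo α β, y ∉ B → ∃! t, t ∈ Icc (0:ℝ) 1 ∧ u t = y := by
  have hc0 : 0 < |c| := by
    rcases hends with h | h
    · exact abs_pos.2 (by intro h0; linarith [h.1, h.2])
    · exact abs_pos.2 (by intro h0; linarith [h.1, h.2])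
  have hcu : ContinuousOn u (Icc 0 1) := hu.continuousOn
  set U : Set ℝ := (fun t => q + c * t) ⁻¹' Ioo (α - μ) (β + μ) with hU
  have hUo : IsOpen U := isOpen_Ioo.preimage (by fun_prop)
  have hUv : ENNReal.ofReal |c| * volume U ≤ ENNReal.ofReal (β - α + 2 * μ) := by
    have h1 : U = (fun t => c * t) ⁻¹' Ioo (α - μ - q) (β + μ - q) := by
      ext t
      simp only [hU, mem_preimage, mem_Ioo]
      constructor
      · rintro ⟨h1, h2⟩; constructor <;> linarith
      · rintro ⟨h1, h2⟩; constructor <;> linarith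
    rw [h1, Real.volume_preimage_mul_left (abs_pos.1 hc0), Real.volume_Ioo, ← mul_assoc,
      ← ENNReal.ofReal_mul hc0.le, abs_inv, mul_inv_cancel₀ hc0.ne', ENNReal.ofReal_one, one_mul]
    exact ENNReal.ofReal_le_ofReal (by linarith)
  obtain ⟨N, hN, hN1, hN2⟩ := exists_majorant hcu (hasMod_deriv hu) hUo
  have hlev : ∀ y ∈ Ioo α β, ∀ t, t ∈ Icc (0:ℝ) 1 → u t = y → t ∈ lev u U y := by
    intro y hy t ht hty
    refine ⟨?_, ht, hty⟩
    have := abs_le.1 (hsup t ht)
    rw [hty] at this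
    simp only [hU, mem_preimage, mem_Ioo]
    constructor
    · linarith [hy.1, this.2]
    · linarith [hy.2, this.1]
  have hex : ∀ y ∈ Ioo α β, ∃ t ∈ Icc (0:ℝ) 1, u t = y := by
    intro y hy
    have h0 := abs_le.1 (hsup 0 (left_mem_Icc.2 zero_le_one))
    have h1 := abs_le.1 (hsup 1 (right_mem_Icc.2 zero_le_one))
    rw [mul_zero, add_zero] at h0
    rw [mul_one] at h1
    rcases hends with h | h
    · have h2 : y ∈ Icc (u 0) (u 1) := ⟨by linarith [hy.1, h0.2, h.1], by linarith [hy.2, h1.1, h.2]⟩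
      exact intermediate_value_Icc zero_le_one hcu h2
    · have h2 : y ∈ Icc (u 1) (u 0) := ⟨by linarith [hy.1, h1.2, h.1], by linarith [hy.2, h0.1, h.2]⟩
      exact intermediate_value_Icc' zero_le_one hcu h2
  have hle : ∫⁻ y in Ioo α β, N y ≤ ENNReal.ofReal (β - α) + ENNReal.ofReal (2 * μ + η) := by
    calc ∫⁻ y in Ioo α β, N y ≤ ∫⁻ y, N y := setLIntegral_le_lintegral _ _
      _ ≤ ∫⁻ r in U ∩ Ioc 0 1, ENNReal.ofReal |deriv u r| := hN2
      _ ≤ ∫⁻ r in U ∩ Ioc 0 1, (ENNReal.ofReal |c| + ENNReal.ofReal |deriv u r - c|) := by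
          refine lintegral_mono fun r => ?_
          simp only
          rw [← ENNReal.ofReal_add (abs_nonneg _) (abs_nonneg _)]
          refine ENNReal.ofReal_le_ofReal ?_
          calc |deriv u r| = |c + (deriv u r - c)| := by ring_nf
            _ ≤ _ := abs_add_le _ _
      _ = ENNReal.ofReal |c| * volume (U ∩ Ioc 0 1) +
          ∫⁻ r in U ∩ Ioc 0 1, ENNReal.ofReal |deriv u r - c| := by
          rw [lintegral_add_left measurable_const, setLIntegral_const]
      _ ≤ ENNReal.ofReal |c| * volume U + ∫⁻ t in Icc (0:ℝ) 1, ENNReal.ofReal |deriv u t - c| := by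
          refine add_le_add ?_ (lintegral_mono_set fun x hx => Ioc_subset_Icc_self hx.2)
          gcongr
          exact inter_subset_left
      _ ≤ ENNReal.ofReal (β - α + 2 * μ) + ENNReal.ofReal η := by gcongr
      _ = _ := by
          rw [← ENNReal.ofReal_add (by linarith) hη, ← ENNReal.ofReal_add (by linarith)
            (by linarith)]
          congr 1; ring
  set B : Set ℝ := Ioo α β ∩ {y | 2 ≤ N y} with hB
  have hBm : MeasurableSet B := measurableSet_Ioo.inter (measurableSet_le measurable_const hN)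
  have hN3 : ∀ y ∈ Ioo α β, 1 ≤ N y := by
    intro y hy
    obtain ⟨t, ht, hty⟩ := hex y hy
    refine le_trans ?_ (hN1 y)
    have : (1 : ℕ∞) ≤ (lev u U y).encard := by
      rw [Set.one_le_encard_iff_nonempty]
      exact ⟨t, hlev y hy t ht hty⟩
    exact_mod_cast this
  refine ⟨B, hBm, ?_, ?_⟩
  · have h1 : ∫⁻ y in Ioo α β, (1 + B.indicator 1 y) ≤ ∫⁻ y in Ioo α β, N y := by
      refine setLIntegral_mono hN fun y hy => ?_
      by_cases hyB : y ∈ B
      · rw [indicator_of_mem hyB]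
        have : (2 : ℝ≥0∞) ≤ N y := hyB.2
        simpa [one_add_one_eq_two] using this
      · rw [indicator_of_notMem hyB, add_zero]
        exact hN3 y hy
    rw [lintegral_add_left measurable_const, setLIntegral_one, Real.volume_Ioo,
      lintegral_indicator_one hBm, Measure.restrict_apply hBm] at h1
    have h2 : B ∩ Ioo α β = B := inter_eq_left.2 inter_subset_left
    rw [h2] at h1
    exact (ENNReal.add_le_add_iff_left ENNReal.ofReal_ne_top).1 (h1.trans hle)
  · intro y hy hyB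
    obtain ⟨t, ht, hty⟩ := hex y hy
    refine ⟨t, ⟨ht, hty⟩, ?_⟩
    rintro s ⟨hs, hsy⟩
    by_contra hst
    apply hyB
    refine ⟨hy, ?_⟩
    refine le_trans ?_ (hN1 y)
    have : (2 : ℕ∞) ≤ (lev u U y).encard := by
      have h1 : ({s, t} : Set ℝ) ⊆ lev u U y := by
        rintro x (rfl | rfl)
        · exact hlev y hy _ hs hsy
        · exact hlev y hy _ ht hty
      calc (2 : ℕ∞) = ({s, t} : Set ℝ).encard := (Set.encard_pair hst).symm
        _ ≤ _ := Set.encard_le_encard h1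
    exact_mod_cast this

/-- **Good levels for a finite family.** -/
theorem not_countable_good {ι : Type*} (S : Finset ι) {u : ι → ℝ → ℝ}
    (hu : ∀ i ∈ S, ∃ K : ℝ≥0, LipschitzOnWith K (u i) (Icc 0 1))
    {q c μ η : ι → ℝ} {α β : ℝ} (hμ : ∀ i ∈ S, 0 ≤ μ i) (hη : ∀ i ∈ S, 0 ≤ η i)
    (hsup : ∀ i ∈ S, ∀ t ∈ Icc (0:ℝ) 1, |u i t - (q i + c i * t)| ≤ μ i)
    (hder : ∀ i ∈ S, ∫⁻ t in Icc (0:ℝ) 1, ENNReal.ofReal |deriv (u i) t - c i| ≤
      ENNReal.ofReal (η i))
    (hends : ∀ i ∈ S, (q i + μ i ≤ α ∧ β ≤ q i + c i - μ i) ∨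
      (q i + c i + μ i ≤ α ∧ β ≤ q i - μ i))
    (hsum : ∑ i ∈ S, (2 * μ i + η i) < β - α) :
    ¬ {y | y ∈ Ioo α β ∧ ∀ i ∈ S, ∃! t, t ∈ Icc (0:ℝ) 1 ∧ u i t = y}.Countable := by
  classical
  have h0 : 0 ≤ ∑ i ∈ S, (2 * μ i + η i) :=
    Finset.sum_nonneg fun i hi => by linarith [hμ i hi, hη i hi]
  have hαβ : α < β := by linarith
  have hB : ∀ i : ι, ∃ B : Set ℝ, i ∈ S → MeasurableSet B ∧
      volume B ≤ ENNReal.ofReal (2 * μ i + η i) ∧
      ∀ y ∈ Ioo α β, y ∉ B → ∃! t, t ∈ Icc (0:ℝ) 1 ∧ u i t = y := by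
    intro i
    by_cases hi : i ∈ S
    · obtain ⟨K, hK⟩ := hu i hi
      obtain ⟨B, hB⟩ := exists_bad hK hαβ (hμ i hi) (hη i hi) (hsup i hi) (hder i hi) (hends i hi)
      exact ⟨B, fun _ => hB⟩
    · exact ⟨∅, fun h => absurd h hi⟩
  choose B hB using hB
  intro hcount
  set T := {y | y ∈ Ioo α β ∧ ∀ i ∈ S, ∃! t, t ∈ Icc (0:ℝ) 1 ∧ u i t = y} with hT
  have hsub : Ioo α β ⊆ T ∪ ⋃ i ∈ S, B i := by
    intro y hy
    by_cases h : ∃ i ∈ S, y ∈ B i
    · obtain ⟨i, hi, hyi⟩ := h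
      exact Or.inr (mem_biUnion hi hyi)
    · push Not at h
      exact Or.inl ⟨hy, fun i hi => (hB i hi).2.2 y hy (h i hi)⟩
  have h1 : volume (Ioo α β) ≤ ENNReal.ofReal (∑ i ∈ S, (2 * μ i + η i)) := by
    calc volume (Ioo α β) ≤ volume (T ∪ ⋃ i ∈ S, B i) := measure_mono hsub
      _ ≤ volume T + volume (⋃ i ∈ S, B i) := measure_union_le _ _
      _ = volume (⋃ i ∈ S, B i) := by rw [hcount.measure_zero, zero_add]
      _ ≤ ∑ i ∈ S, volume (B i) := measure_biUnion_finset_le _ _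
      _ ≤ ∑ i ∈ S, ENNReal.ofReal (2 * μ i + η i) := Finset.sum_le_sum fun i hi => (hB i hi).2.1
      _ = _ := (ENNReal.ofReal_sum_of_nonneg fun i hi => by linarith [hμ i hi, hη i hi]).symm
  rw [Real.volume_Ioo, ENNReal.ofReal_le_ofReal_iff h0] at h1
  linarith

end P073.GB1W
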