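import Vale.Agent.P073.GB73.Spec
import Vale.Agent.P073.GB1W.Level
import Vale.Agent.P073.PR.Boxes

/-!
# P073, block GB1: bodies which are affine images of boxes
-/

open Set Metric Topology Filter MeasureTheory
open scoped Pointwise

namespace P073.GB1W

open P073 P073.GB73
open Vale.Agent.P073.St (V)

/-- the symmetric box with half sides `w` -/
def sbox (w : V) : Set V := {x | ∀ k, |x k| ≤ w k}

theorem sbox_eq (w : V) : sbox w = Icc (-w) w := by
  ext x
  show (∀ k, |x k| ≤ w k) ↔ _
  simp only [mem_Icc, Pi.le_def, Pi.neg_apply, abs_le]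
  constructor
  · intro h; exact ⟨fun k => (h k).1, fun k => (h k).2⟩
  · intro h k; exact ⟨h.1 k, h.2 k⟩

theorem interior_sbox (w : V) : interior (sbox w) = {x | ∀ k, |x k| < w k} := by
  have h1 : sbox w = pi univ fun k => Icc (-w k) (w k) := by
    ext x
    show (∀ k, |x k| ≤ w k) ↔ _
    simp only [Set.mem_pi, mem_univ, true_implies, mem_Icc, abs_le]
  rw [h1, interior_pi_set finite_univ]
  ext x
  simp [interior_Icc, abs_lt]

/-- the affine homeomorphism `x ↦ y0 + A x` -/
noncomputable def aff (y0 : V) (A : V ≃L[ℝ] V) : V ≃ₜ V :=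
  A.toHomeomorph.trans (Homeomorph.addLeft y0)

@[simp] theorem aff_apply (y0 : V) (A : V ≃L[ℝ] V) (x : V) : aff y0 A x = y0 + A x := rfl

/-- the body around `y0` of shape `A (box w)` -/
noncomputable def bBody (y0 : V) (A : V ≃L[ℝ] V) (w : V) (T : Set ℝ) : Body :=
  ⟨y0, A '' sbox w, T⟩

variable {y0 : V} {A : V ≃L[ℝ] V} {w : V} {T : Set ℝ} {t : ℝ}

theorem at_eq (ht : 0 < t) : (bBody y0 A w T).at t = aff y0 A '' sbox (fun k => t * w k) := by
  ext y
  simp only [Body.at, bBody, image_image, mem_image, aff_apply]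
  constructor
  · rintro ⟨x, hx, rfl⟩
    refine ⟨t • x, fun k => ?_, by rw [map_smul]⟩
    rw [Pi.smul_apply, smul_eq_mul, abs_mul, abs_of_pos ht]
    exact mul_le_mul_of_nonneg_left (hx k) ht.le
  · rintro ⟨x, hx, rfl⟩
    refine ⟨t⁻¹ • x, fun k => ?_, ?_⟩
    · rw [Pi.smul_apply, smul_eq_mul, abs_mul, abs_of_pos (inv_pos.2 ht), inv_mul_le_iff₀ ht]
      exact hx k
    · rw [map_smul, smul_smul, mul_inv_cancel₀ ht.ne', one_smul]

theorem aff_symm (y : V) : (aff y0 A).symm y = A.symm (y - y0) := by
  apply (aff y0 A).injective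
  rw [Homeomorph.apply_symm_apply, aff_apply, ContinuousLinearEquiv.apply_symm_apply]
  abel

theorem mem_at (ht : 0 < t) {y : V} :
    y ∈ (bBody y0 A w T).at t ↔ ∀ k, |A.symm (y - y0) k| ≤ t * w k := by
  rw [at_eq ht, Homeomorph.image_eq_preimage_symm, mem_preimage, aff_symm]
  rfl

theorem mem_interior_at (ht : 0 < t) {y : V} :
    y ∈ interior ((bBody y0 A w T).at t) ↔ ∀ k, |A.symm (y - y0) k| < t * w k := by
  rw [at_eq ht, ← Homeomorph.image_interior, interior_sbox, Homeomorph.image_eq_preimage_symm,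
    mem_preimage, aff_symm]
  rfl

theorem isClosed_at (ht : 0 < t) : IsClosed ((bBody y0 A w T).at t) := by
  rw [at_eq ht, Homeomorph.isClosed_image, sbox_eq]
  exact isClosed_Icc

theorem mem_frontier_at (ht : 0 < t) {y : V} :
    y ∈ frontier ((bBody y0 A w T).at t) ↔
      (∀ k, |A.symm (y - y0) k| ≤ t * w k) ∧ ∃ k, |A.symm (y - y0) k| = t * w k := by
  rw [(isClosed_at ht).frontier_eq, Set.mem_sdiff, mem_at ht, mem_interior_at ht]
  constructor
  · rintro ⟨h1, h2⟩
    push Not at h2
    obtain ⟨k, hk⟩ := h2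
    exact ⟨h1, k, le_antisymm (h1 k) hk⟩
  · rintro ⟨h1, k, hk⟩
    exact ⟨h1, fun h2 => (h2 k).ne hk⟩

/-- the affine map `x ↦ y0 + A x` -/
noncomputable def affM (y0 : V) (A : V ≃L[ℝ] V) : V →ᵃ[ℝ] V where
  toFun x := y0 + A x
  linear := A.toLinearEquiv.toLinearMap
  map_vadd' := fun v w => by
    simp only [vadd_eq_add, map_add, ContinuousLinearEquiv.coe_toLinearEquiv,
      LinearEquiv.coe_coe]
    abel

/-- the levels of the body are conical balls -/
theorem conBall_at (hw : ∀ k, 0 < w k) (ht : 0 < t) :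
    ConBall 3 ((bBody y0 A w T).at t) (frontier ((bBody y0 A w T).at t)) := by
  have h1 : ∀ k, (-(fun k => t * w k) : V) k < (fun k => t * w k) k := fun k => by
    have := mul_pos ht (hw k)
    simp only [Pi.neg_apply]
    linarith
  have hc : Continuous (affM y0 A) := by
    show Continuous fun x => y0 + A x
    exact continuous_const.add A.continuous
  have hi : Function.Injective (affM y0 A) := fun x y h => by
    have h2 : y0 + A x = y0 + A y := h
    exact A.injective (add_left_cancel h2)
  have h3 := (conBall_Icc_pi (n := 3) (by norm_num) h1).image_affine (affM y0 A) hi hc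
  rw [at_eq ht, ← Homeomorph.image_frontier, sbox_eq]
  exact h3

/-- the body is good -/
theorem good_bBody {Λ : Set V} (hw : ∀ k, 0 < w k) (hpos : ∀ t ∈ T, 0 < t) (hT : ¬ T.Countable)
    (hsub : ∀ t ∈ T, (bBody y0 A w T).at t ⊆ Λ) : (bBody y0 A w T).Good Λ where
  compact := by
    show IsCompact (A '' sbox w)
    rw [sbox_eq]
    exact isCompact_Icc.image A.continuous
  convex := by
    show Convex ℝ (A '' sbox w)
    rw [sbox_eq]
    exact (convex_Icc _ _).linear_image A.toLinearEquiv.toLinearMap
  nhds := by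
    show A '' sbox w ∈ 𝓝 (0 : V)
    have h1 : sbox w ∈ 𝓝 (0 : V) := by
      rw [← mem_interior_iff_mem_nhds, interior_sbox]
      intro k
      simpa using hw k
    have h2 := A.toHomeomorph.isOpenMap.image_mem_nhds h1
    simpa using h2
  cone := by
    show LocCone (A '' sbox w)
    rw [sbox_eq]
    let C : ConHomeo (univ : Set V) (univ : Set V) :=
      { toFun := A
        invFun := A.symm
        mapsTo := mapsTo_univ _ _
        mapsTo_inv := mapsTo_univ _ _
        left_inv := fun x _ => A.symm_apply_apply x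
        right_inv := fun x _ => A.apply_symm_apply x
        cont := A.continuous.continuousOn
        cont_inv := A.symm.continuous.continuousOn
        conical := conicalOn_linear A.toLinearEquiv.toLinearMap locCone_univ.conicalSet }
    exact (locCone_Icc_pi (-w) w).image C
  pos := hpos
  unc := hT
  sub := hsub
  ball := fun _ ht => conBall_at hw (hpos _ ht)

end P073.GB1W
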